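import Mathlib

namespace Vale.Agent.Lib.P335

open Finset

open Classical in
/-- The labelled simple graphs on the vertex set `Fin n` having degree `d i` at each vertex `i`. -/
noncomputable def realizations (n : ℕ) (d : Fin n → ℕ) : Finset (SimpleGraph (Fin n)) :=
  Finset.univ.filter (fun G => ∀ i, G.degree i = d i)

/-- `F` is a perfect matching of the complete graph on `S`: two non-loop edges whose
endpoints are exactly the elements of `S`. -/
def IsPerfectMatchingOn {n : ℕ} (S : Finset (Fin n)) (F : Finset (Sym2 (Fin n))) : Prop :=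
  F.card = 2 ∧ (∀ e ∈ F, ¬ e.IsDiag) ∧ ∀ v, v ∈ S ↔ ∃ e ∈ F, v ∈ e

open Classical in
/-- All triples `(S, F, F')`: `S` a 4-element vertex set and `(F, F')` an ordered pair of
distinct perfect matchings of the complete graph on `S`. -/
noncomputable def moves (n : ℕ) :
    Finset (Finset (Fin n) × Finset (Sym2 (Fin n)) × Finset (Sym2 (Fin n))) :=
  Finset.univ.filter (fun m => m.1.card = 4 ∧ IsPerfectMatchingOn m.1 m.2.1 ∧
    IsPerfectMatchingOn m.1 m.2.2 ∧ m.2.1 ≠ m.2.2)

open Classical in
/-- The result of attempting the move `(S, F, F')` at `G`: if both edges of `F` are present and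
both edges of `F'` are absent, replace `F` by `F'`; otherwise stay at `G`. -/
noncomputable def applyMove {n : ℕ} (G : SimpleGraph (Fin n))
    (m : Finset (Fin n) × Finset (Sym2 (Fin n)) × Finset (Sym2 (Fin n))) : SimpleGraph (Fin n) :=
  if (∀ e ∈ m.2.1, e ∈ G.edgeSet) ∧ (∀ e ∈ m.2.2, e ∉ G.edgeSet) then
    SimpleGraph.fromEdgeSet
      ((G.edgeSet \ (m.2.1 : Set (Sym2 (Fin n)))) ∪ (m.2.2 : Set (Sym2 (Fin n))))
  else G

open Classical in
/-- One-step transition probability of the switch chain from `G` to `H`: with probability `1/2`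
stay; otherwise a uniform 4-set `S` (probability `1 / C(n,4)`), then one of the six ordered pairs
of distinct perfect matchings on `S` (probability `1/6`), then the attempted move. -/
noncomputable def kernel (n : ℕ) (G H : SimpleGraph (Fin n)) : ℝ :=
  (if H = G then 1 / 2 else 0) +
    (1 / 2) * (1 / (n.choose 4 : ℝ)) * (1 / 6) *
      (((moves n).filter (fun m => applyMove G m = H)).card : ℝ)

open Classical in
/-- `walk n d t G H` is the `t`-step transition probability `P^t(G, H)` of the switch chain on
the realizations of `d`: `P^0(G, H) = 1` if `H = G` and `0` otherwise, and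
`P^(t+1)(G, H) = ∑ K ∈ realizations n d, P^t(G, K) * P(K, H)`. -/
noncomputable def walk (n : ℕ) (d : Fin n → ℕ) (t : ℕ) :
    SimpleGraph (Fin n) → SimpleGraph (Fin n) → ℝ :=
  Nat.rec (motive := fun _ => SimpleGraph (Fin n) → SimpleGraph (Fin n) → ℝ)
    (fun G H => if H = G then 1 else 0)
    (fun _ prev G H => ∑ K ∈ realizations n d, prev G K * kernel n K H) t

/-- Total variation distance between the `t`-step distribution started at `G` and the uniform
distribution on the realizations of `d`. -/
noncomputable def tvToUniform (n : ℕ) (d : Fin n → ℕ) (t : ℕ) (G : SimpleGraph (Fin n)) : ℝ :=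
  (1 / 2) * ∑ H ∈ realizations n d, |walk n d t G H - 1 / ((realizations n d).card : ℝ)|

theorem kernel_nonneg (n : ℕ) (G H : SimpleGraph (Fin n)) : 0 ≤ kernel n G H := by
  unfold kernel
  positivity

open Classical in
theorem walk_zero (n : ℕ) (d : Fin n → ℕ) (G H : SimpleGraph (Fin n)) :
    walk n d 0 G H = if H = G then 1 else 0 := rfl

theorem walk_succ (n : ℕ) (d : Fin n → ℕ) (t : ℕ) (G H : SimpleGraph (Fin n)) :
    walk n d (t + 1) G H = ∑ K ∈ realizations n d, walk n d t G K * kernel n K H := rfl

theorem walk_nonneg (n : ℕ) (d : Fin n → ℕ) (t : ℕ) (G H : SimpleGraph (Fin n)) :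
    0 ≤ walk n d t G H := by
  induction t generalizing H with
  | zero => rw [walk_zero]; split_ifs <;> norm_num
  | succ t ih =>
    rw [walk_succ]
    exact Finset.sum_nonneg (fun K _ => mul_nonneg (ih K) (kernel_nonneg n K H))


end Vale.Agent.Lib.P335
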